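import Vale.Agent.P284.H213.Q.AsmQS
import Vale.Agent.P284.H119.Kaz
import Vale.Agent.P284.H573.DK.FinRep

/-!
# P284 (helper213), theorem T3: group assembly, interface statements

`CoreTP D`: on a manifold of the class `D` there are no data `(Γ, K = ker c)` with `K` finitely generated,
without property (T), all of whose finite dimensional real representations have finite range.

`CoreT D`: the same for normalised data (`NPkg`).

`MainPiT D`: every quotient `Q` of the fundamental group has a subgroup of finite index which maps onto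
`ℤ^m`, `m ≤ 2 n`, with finitely generated kernel `K` such that `K` has property (T) (e.g. is finite) or has
a finite dimensional real representation the image of which is not virtually solvable.
-/

open scoped Manifold ContDiff Topology Pointwise ComplexConjugate ComplexOrder
open Filter Set Metric MeasureTheory

noncomputable section

namespace Vale.Agent.P284.H213.T3

open Vale.Agent.P272.K Vale.Agent.P284.H248 Vale.Agent.P284.H894 Vale.Agent.P284.H894.G
  Vale.Agent.P284.H894.V Vale.Agent.P284.H894.W Vale.Agent.P284.H894.F Vale.Agent.P284.H998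
  Vale.Agent.P284.H213.Grp Vale.Agent.P284.H213.Q Vale.Agent.P284.H119.Kaz

/-- `K` has a representation in `GL_d(ℝ)` the image of which is not virtually solvable. -/
def NSRep (K : Type*) [Group K] : Prop :=
  ∃ (d : ℕ) (ρ : K →* Matrix.GeneralLinearGroup (Fin d) ℝ),
    ∀ H : Subgroup K, H.FiniteIndex → ¬ IsSolvable (H.map ρ)

/-- The conclusion: a subgroup of finite index of `Q` maps onto `ℤ^m`, `m ≤ r`, with finitely generated
kernel, which has property (T) or a representation as in `NSRep`. -/
def T3C (Q : Type) [Group Q] (r : ℕ) : Prop :=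
  ∃ (G : Subgroup Q) (m : ℕ) (χ : G →* Multiplicative (Fin m → ℤ)), G.FiniteIndex ∧ m ≤ r ∧
    Function.Surjective χ ∧ Group.FG χ.ker ∧ (Kazhdan χ.ker ∨ NSRep χ.ker)

/-- **CORE**, strong form, for the class `D`. -/
def CoreTP (D : Cls) : Prop :=
  ∀ (n : ℕ) (X : Type) [TopologicalSpace X] [T2Space X] [CompactSpace X] [ConnectedSpace X]
    [ChartedSpace (Cm n) X] [IsManifold 𝓘(ℂ, Cm n) ω X] (ι : Type) [Fintype ι] (_ : PJ n X ι)
    (_ : D n X) (w : Chart n X → Cm n → Matrix (Fin n) (Fin n) ℂ), IsKahler w →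
    ∀ (E Γ : Type) [TopologicalSpace E] [ConnectedSpace E] [Group Γ] [MulAction Γ E]
      (p : E → X), IsGalois Γ p →
    ∀ (q : ℕ) (F : E → Cm q) (c : Γ → Cm q) (K : Subgroup Γ), (∃ B, HolB p w F B) →
      (∀ g y, F (g • y) = F y + c g) → (∃ y, Reg (n := n) p F y) → GenConn (n := n) p F →
      LatChar Γ q c → (∀ g, g ∈ K ↔ c g = 0) → Group.FG K → ¬ VirtIndicable K →
      H573.DK.FinRep K → ¬ Kazhdan K → False

/-- **CORE**, for normalised data: the kernel does not have property (T), all its finite dimensional real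
representations have finite range. -/
def CoreT (D : Cls) : Prop :=
  ∀ (n : ℕ) (X : Type) [TopologicalSpace X] [T2Space X] [CompactSpace X] [ConnectedSpace X]
    [ChartedSpace (Cm n) X] [IsManifold 𝓘(ℂ, Cm n) ω X] (ι : Type) [Fintype ι] (_ : PJ n X ι)
    (_ : D n X) (w : Chart n X → Cm n → Matrix (Fin n) (Fin n) ℂ), IsKahler w →
    ∀ (E Γ : Type) [TopologicalSpace E] [ConnectedSpace E] [Group Γ] [MulAction Γ E]
      (p : E → X), IsGalois Γ p →
    ∀ (q : ℕ) (F : E → Cm q) (c : Γ → Cm q) (K : Subgroup Γ), (∃ B, HolB p w F B) →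
      (∀ g y, F (g • y) = F y + c g) → (∃ y, Reg (n := n) p F y) → GenConn (n := n) p F →
      NPkg Γ q c K → H573.DK.FinRep K → ¬ Kazhdan K → False

/-- The conclusion with normalised data: a subgroup `G` of finite index of `Q` maps onto `ℤ^m`, `m ≤ r`,
with finitely generated kernel `K`, and `K` is finite, or `K` has an infinite quotient `K/N`, `N` normal
in `G`, with property (T), or `K` has a representation as in `NSRep`. -/
def T3N (Q : Type) [Group Q] (r : ℕ) : Prop :=
  ∃ (G : Subgroup Q) (m : ℕ) (χ : G →* Multiplicative (Fin m → ℤ)), G.FiniteIndex ∧ m ≤ r ∧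
    Function.Surjective χ ∧ Group.FG χ.ker ∧
    (Finite χ.ker ∨
      (∃ (N : Subgroup G) (_ : N.Normal), N ≤ χ.ker ∧ Infinite (χ.ker.map (QuotientGroup.mk' N)) ∧
        Kazhdan (χ.ker.map (QuotientGroup.mk' N))) ∨
      NSRep χ.ker)

/-- quotients of the group of a simply connected covering, normalised form -/
def MainSCN (D : Cls) : Prop :=
  ∀ (n : ℕ) (X : Type) [TopologicalSpace X] [T2Space X] [CompactSpace X] [ConnectedSpace X]
    [ChartedSpace (Cm n) X] [IsManifold 𝓘(ℂ, Cm n) ω X] (ι : Type) [Fintype ι] (_ : PJ n X ι)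
    (_ : D n X) (w : Chart n X → Cm n → Matrix (Fin n) (Fin n) ℂ), IsKahler w →
    ∀ (E Γ : Type) [TopologicalSpace E] [SimplyConnectedSpace E] [Group Γ] [MulAction Γ E]
      (p : E → X), IsGalois Γ p →
    ∀ (Q : Type) [Group Q] (f : Γ →* Q), Function.Surjective f → T3N Q (2 * n)

/-- quotients of the fundamental group, normalised form -/
def MainPiN (D : Cls) : Prop :=
  ∀ (n : ℕ) (X : Type) [TopologicalSpace X] [T2Space X] [CompactSpace X] [ConnectedSpace X]
    [ChartedSpace (Cm n) X] [IsManifold 𝓘(ℂ, Cm n) ω X] (ι : Type) [Fintype ι] (_ : PJ n X ι)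
    (_ : D n X) (w : Chart n X → Cm n → Matrix (Fin n) (Fin n) ℂ), IsKahler w →
    ∀ (x : X) (Q : Type) [Group Q] (f : FundamentalGroup X x →* Q), Function.Surjective f →
      T3N Q (2 * n)

/-- quotients of the group of a simply connected covering -/
def MainSCT (D : Cls) : Prop :=
  ∀ (n : ℕ) (X : Type) [TopologicalSpace X] [T2Space X] [CompactSpace X] [ConnectedSpace X]
    [ChartedSpace (Cm n) X] [IsManifold 𝓘(ℂ, Cm n) ω X] (ι : Type) [Fintype ι] (_ : PJ n X ι)
    (_ : D n X) (w : Chart n X → Cm n → Matrix (Fin n) (Fin n) ℂ), IsKahler w →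
    ∀ (E Γ : Type) [TopologicalSpace E] [SimplyConnectedSpace E] [Group Γ] [MulAction Γ E]
      (p : E → X), IsGalois Γ p →
    ∀ (Q : Type) [Group Q] (f : Γ →* Q), Function.Surjective f → T3C Q (2 * n)

/-- quotients of the fundamental group -/
def MainPiT (D : Cls) : Prop :=
  ∀ (n : ℕ) (X : Type) [TopologicalSpace X] [T2Space X] [CompactSpace X] [ConnectedSpace X]
    [ChartedSpace (Cm n) X] [IsManifold 𝓘(ℂ, Cm n) ω X] (ι : Type) [Fintype ι] (_ : PJ n X ι)
    (_ : D n X) (w : Chart n X → Cm n → Matrix (Fin n) (Fin n) ℂ), IsKahler w →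
    ∀ (x : X) (Q : Type) [Group Q] (f : FundamentalGroup X x →* Q), Function.Surjective f →
      T3C Q (2 * n)

end Vale.Agent.P284.H213.T3
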