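import Vale.Agent.P284.H213.Grp.Norm

/-!
# P284 (helper213), theorem T3: module NORM with the kernel `K₁` made explicit

The proofs are those of `Grp/Norm.lean`; the kernel of the normalised data is the image of `K`.
-/

open Function

noncomputable section

namespace Vale.Agent.P284.H213.T3

open Vale.Agent.P272.K Vale.Agent.P284.H894.V Vale.Agent.P284.H213.Grp

section pre
variable {Γ : Type} [Group Γ] {N : ℕ} {c : Γ → Cm N} {K : Subgroup Γ}

/-- **Step C**: the quotient by `ker c₂ ⊓ C(K)`. -/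
theorem npkg_ofK (h : Pre Γ N c K) {q : ℕ} (L : Cm N →ₗ[ℂ] Cm q)
    (hlat : LatChar Γ q (fun g => L (c g))) (hgood : Good K (fun g => L (c g)))
    (hmax : ∀ W : Submodule ℂ (Cm q),
      (∀ v ∈ W, v ∈ Submodule.span ℝ ({v | ∃ g, (∀ k ∈ K, g * k = k * g) ∧ L (c g) = v} ∩
        (W : Set (Cm q)))) → W = ⊥) :
    ∃ (M : Subgroup Γ) (_ : M.Normal) (c₁ : Γ ⧸ M → Cm q),
      (∀ g : Γ, c₁ (g : Γ ⧸ M) = L (c g)) ∧
      NPkg (Γ ⧸ M) q c₁ (K.map (QuotientGroup.mk' M)) := by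
  classical
  have hKn := h.normal
  have := hKn
  have := h.fg
  have := h.inf
  have hCn : (Subgroup.centralizer (K : Set Γ)).Normal := Subgroup.normal_centralizer
  have := hCn
  have := hlat.ker_normal
  set M : Subgroup Γ := hlat.ker ⊓ Subgroup.centralizer (K : Set Γ) with hM
  have hMn : M.Normal := inferInstance
  have hcent : ∀ g, g ∈ Subgroup.centralizer (K : Set Γ) ↔ ∀ k ∈ K, g * k = k * g := fun g => by
    rw [Subgroup.mem_centralizer_iff]
    exact ⟨fun h k hk => (h k hk).symm, fun h k hk => (h k hk).symm⟩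
  -- the centre of `K` is trivial
  have hcK : ∀ g ∈ K, (∀ k ∈ K, g * k = k * g) → g = 1 :=
    cent_trivial hKn h.fg h.inf h.nvi h.just K le_rfl hKn (by
      rw [Subgroup.subgroupOf_self]; infer_instance)
  have hKM : ∀ g ∈ K, g ∈ M → g = 1 := fun g hg hgM => hcK g hg ((hcent g).1 hgM.2)
  obtain ⟨c₁, hc₁, hlat₁⟩ := exists_lift hlat M inf_le_left
  let π := QuotientGroup.mk' M
  have hπ : Surjective π := QuotientGroup.mk'_surjective M
  have hπ1 : ∀ g, π g = 1 ↔ g ∈ M := fun g => QuotientGroup.eq_one_iff g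
  have hcπ : ∀ g, c₁ (π g) = L (c g) := hc₁
  let f : K →* K.map π := π.subgroupMap K
  have hf : Surjective f := π.subgroupMap_surjective K
  have hfi : Injective f := by
    rw [injective_iff_map_eq_one]
    intro x hx
    have h1 : π x = 1 := congrArg Subtype.val hx
    exact Subtype.ext (hKM x x.2 ((hπ1 _).1 h1))
  let e : K ≃* K.map π := MulEquiv.ofBijective f ⟨hfi, hf⟩
  have hK₁n : (K.map π).Normal := hKn.map π hπ
  have hfg₁ : Group.FG (K.map π) := Group.fg_of_surjective hf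
  have hinf₁ : Infinite (K.map π) := Infinite.of_injective f hfi
  have hnvi₁ : ¬ VirtIndicable (K.map π) := fun hv => h.nvi (virtInd_congr e hv)
  have hsub₁ : ∀ g ∈ K.map π, c₁ g = 0 := by
    rintro _ ⟨g, hg, rfl⟩
    rw [hcπ, (h.mem g).1 hg, map_zero]
  have hjust₁ : ∀ M' : Subgroup (Γ ⧸ M), M'.Normal → M' ≤ K.map π → M' ≠ ⊥ →
      (M'.subgroupOf (K.map π)).FiniteIndex := by
    intro M' hM'n hM'K hM'0
    have := hM'n.comap π
    have h1 : (M'.comap π ⊓ K).Normal := inferInstance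
    have h2 : M'.comap π ⊓ K ≠ ⊥ := by
      intro h0
      apply hM'0
      rw [eq_bot_iff]
      intro x hx
      obtain ⟨g, hg, rfl⟩ := hM'K hx
      have : g ∈ M'.comap π ⊓ K := ⟨hx, hg⟩
      rw [h0, Subgroup.mem_bot] at this
      rw [this, map_one]; exact Subgroup.one_mem _
    have h3 := fi_map π (h.just _ h1 inf_le_right h2)
    have h4 : (M'.comap π ⊓ K).map π ≤ M' := by
      rintro _ ⟨g, hg, rfl⟩
      exact hg.1
    obtain ⟨F, hF, -, hFc⟩ := cover_of_fi h3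
    exact fi_of_cover hF fun g hg => by
      obtain ⟨b, hb, hbg⟩ := hFc g hg
      exact ⟨b, hb, h4 hbg⟩
  -- the centralizer of `K₁` meets `ker c₁` trivially
  have hcent₁ : ∀ g, (∀ k ∈ K.map π, g * k = k * g) → ∀ x, π x = g → ∀ k ∈ K, x * k = k * x := by
    rintro _ hg x rfl k hk
    have h1 := hg (π k) ⟨k, hk, rfl⟩
    have h2 : π (x * k * x⁻¹ * k⁻¹) = 1 := by
      rw [map_mul, map_mul, map_mul, h1, map_inv, map_inv]; group
    have h3 : x * k * x⁻¹ * k⁻¹ ∈ K := K.mul_mem (hKn.conj_mem k hk x) (K.inv_mem hk)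
    have h4 := hKM _ h3 ((hπ1 _).1 h2)
    calc x * k = (x * k * x⁻¹ * k⁻¹) * (k * x) := by group
      _ = k * x := by rw [h4, one_mul]
  have hcc₁ : ∀ g, (∀ k ∈ K.map π, g * k = k * g) → c₁ g = 0 → g = 1 := by
    intro g hg hg0
    obtain ⟨x, rfl⟩ := hπ g
    rw [hπ1]
    refine ⟨?_, (hcent x).2 (hcent₁ _ hg x rfl)⟩
    rw [hcπ] at hg0
    exact hg0
  refine ⟨M, hMn, c₁, hc₁, hlat₁, hK₁n, hfg₁, hinf₁, hsub₁, ?_, hnvi₁, hjust₁, ?_, ?_, ?_⟩
  · -- finite index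
    obtain ⟨F, hF, hFc⟩ := hgood
    refine ⟨π '' F, hF.image _, fun g hg => ?_⟩
    obtain ⟨x, rfl⟩ := hπ g
    rw [hcπ] at hg
    obtain ⟨f', hf', k, hk, d, hd, hd0, he⟩ := hFc x hg
    have h1 : π d = 1 := (hπ1 _).2 ⟨hd0, (hcent d).2 hd⟩
    refine ⟨π f', ⟨f', hf', rfl⟩, ⟨k, hk, ?_⟩⟩
    show π k = _
    rw [he, map_mul, map_mul, h1]; group
  · -- centralizers
    intro K' hK' hK'fi g hg0 hgk
    obtain ⟨K'', hn'', hle'', hfi''⟩ := exists_normal_core hK₁n hfg₁ K' hK' hK'fi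
    have htriv := cent_trivial hK₁n hfg₁ hinf₁ hnvi₁ hjust₁ K'' (hle''.trans hK') hn'' hfi''
    have hgk'' : ∀ k ∈ K'', g * k = k * g := fun k hk => hgk k (hle'' hk)
    -- `g` centralizes `K₁`
    have h1 : ∀ k ∈ K.map π, g * k = k * g := by
      intro k hk
      have h2 : g * k * g⁻¹ * k⁻¹ ∈ K.map π :=
        Subgroup.mul_mem _ (hK₁n.conj_mem k hk g) (Subgroup.inv_mem _ hk)
      have h3 : ∀ z ∈ K'', (g * k * g⁻¹ * k⁻¹) * z = z * (g * k * g⁻¹ * k⁻¹) := by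
        intro z hz
        have e1 : g * z = z * g := hgk'' z hz
        have hz' : k⁻¹ * z * k ∈ K'' := by
          have := hn''.conj_mem z hz k⁻¹
          rwa [inv_inv] at this
        have e2 : g * (k⁻¹ * z * k) = (k⁻¹ * z * k) * g := hgk'' _ hz'
        have e3 : g⁻¹ * (k⁻¹ * z * k) = (k⁻¹ * z * k) * g⁻¹ := by
          calc g⁻¹ * (k⁻¹ * z * k) = g⁻¹ * ((k⁻¹ * z * k) * g) * g⁻¹ := by group
            _ = g⁻¹ * (g * (k⁻¹ * z * k)) * g⁻¹ := by rw [e2]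
            _ = _ := by group
        calc (g * k * g⁻¹ * k⁻¹) * z = g * k * (g⁻¹ * (k⁻¹ * z * k)) * k⁻¹ := by group
          _ = g * k * ((k⁻¹ * z * k) * g⁻¹) * k⁻¹ := by rw [e3]
          _ = (g * z) * k * g⁻¹ * k⁻¹ := by group
          _ = (z * g) * k * g⁻¹ * k⁻¹ := by rw [e1]
          _ = _ := by group
      have h4 := htriv _ h2 h3
      calc g * k = (g * k * g⁻¹ * k⁻¹) * (k * g) := by group
        _ = k * g := by rw [h4, one_mul]
    exact hcc₁ g h1 hg0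
  · -- the centralizer is central
    intro g hg x
    have h1 : c₁ (g * x * g⁻¹ * x⁻¹) = 0 := by
      rw [hlat₁.add, hlat₁.add, hlat₁.add, hlat₁.map_inv, hlat₁.map_inv]; abel
    have h2 : ∀ k ∈ K.map π, (g * x * g⁻¹ * x⁻¹) * k = k * (g * x * g⁻¹ * x⁻¹) := by
      intro k hk
      have hk' : x⁻¹ * k * x ∈ K.map π := by
        have := hK₁n.conj_mem k hk x⁻¹
        rwa [inv_inv] at this
      have e1 : g * k = k * g := hg k hk
      have e2 : g * (x⁻¹ * k * x) = (x⁻¹ * k * x) * g := hg _ hk'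
      have e3 : g⁻¹ * (x⁻¹ * k * x) = (x⁻¹ * k * x) * g⁻¹ := by
        calc g⁻¹ * (x⁻¹ * k * x) = g⁻¹ * ((x⁻¹ * k * x) * g) * g⁻¹ := by group
          _ = g⁻¹ * (g * (x⁻¹ * k * x)) * g⁻¹ := by rw [e2]
          _ = _ := by group
      calc (g * x * g⁻¹ * x⁻¹) * k = g * x * (g⁻¹ * (x⁻¹ * k * x)) * x⁻¹ := by group
        _ = g * x * ((x⁻¹ * k * x) * g⁻¹) * x⁻¹ := by rw [e3]
        _ = (g * k) * x * g⁻¹ * x⁻¹ := by group
        _ = (k * g) * x * g⁻¹ * x⁻¹ := by rw [e1]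
        _ = _ := by group
    have h3 := hcc₁ _ h2 h1
    calc g * x = (g * x * g⁻¹ * x⁻¹) * (x * g) := by group
      _ = x * g := by rw [h3, one_mul]
  · -- maximality
    intro W hW
    refine hmax W fun v hv => ?_
    have h1 : {v | ∃ g, (∀ k ∈ K.map π, g * k = k * g) ∧ c₁ g = v} ⊆
        {v | ∃ g, (∀ k ∈ K, g * k = k * g) ∧ L (c g) = v} := by
      rintro _ ⟨g, hg, rfl⟩
      obtain ⟨x, rfl⟩ := hπ g
      exact ⟨x, hcent₁ _ hg x rfl, (hcπ x).symm⟩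
    exact Submodule.span_mono (Set.inter_subset_inter_left _ h1) (hW v hv)

end pre

/-- **NORM** with explicit kernel. -/
theorem normK (Γ : Type) [Group Γ] (N : ℕ) (c : Γ → Cm N) (h : LatChar Γ N c) (K : Subgroup Γ)
    (hK : ∀ g, g ∈ K ↔ c g = 0) (hfg : Group.FG K) (hinf : Infinite K) (hnvi : ¬ VirtIndicable K) :
    ∃ (M : Subgroup Γ) (_ : M.Normal) (q : ℕ) (L : Cm N →ₗ[ℂ] Cm q) (c₁ : Γ ⧸ M → Cm q),
      Function.Surjective L ∧ (∀ g : Γ, c₁ (g : Γ ⧸ M) = L (c g)) ∧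
      NPkg (Γ ⧸ M) q c₁ (K.map (QuotientGroup.mk' M)) := by
  obtain ⟨M₀, hM₀n, c₀, hc₀, hpre⟩ := exists_pre h K hK hfg hinf hnvi
  obtain ⟨q, L, hL, hlat, hgood, hmax⟩ := exists_torus hpre
  obtain ⟨M₁, hM₁n, c₁, hc₁, hpkg⟩ := npkg_ofK hpre L hlat hgood hmax
  -- the double quotient
  let π := QuotientGroup.mk' M₀
  let M : Subgroup Γ := M₁.comap π
  have hMn : M.Normal := hM₁n.comap π
  let f : Γ →* (Γ ⧸ M₀) ⧸ M₁ := (QuotientGroup.mk' M₁).comp π
  have hf : Surjective f := (QuotientGroup.mk'_surjective M₁).comp (QuotientGroup.mk'_surjective M₀)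
  have hfk : f.ker = M := by
    rw [← MonoidHom.comap_bot, ← Subgroup.comap_comap, MonoidHom.comap_bot, QuotientGroup.ker_mk']
  let e : Γ ⧸ M ≃* (Γ ⧸ M₀) ⧸ M₁ := (QuotientGroup.quotientMulEquivOfEq hfk.symm).trans
    (QuotientGroup.quotientKerEquivOfSurjective f hf)
  have he : ∀ g : Γ, e (g : Γ ⧸ M) = f g := fun g => rfl
  have hKe : K.map (QuotientGroup.mk' M) =
      ((K.map π).map (QuotientGroup.mk' M₁)).comap e.toMonoidHom := by
    ext x
    constructor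
    · rintro ⟨k, hk, rfl⟩
      exact ⟨π k, ⟨k, hk, rfl⟩, rfl⟩
    · rintro ⟨_, ⟨k, hk, rfl⟩, hx⟩
      refine ⟨k, hk, e.injective ?_⟩
      exact hx
  refine ⟨M, hMn, q, L, fun x => c₁ (e x), hL, fun g => ?_, ?_⟩
  · show c₁ ((π g : Γ ⧸ M₀) : (Γ ⧸ M₀) ⧸ M₁) = _
    rw [hc₁]
    show L (c₀ (g : Γ ⧸ M₀)) = _
    rw [hc₀]
  · rw [hKe]
    exact hpkg.congr e

end Vale.Agent.P284.H213.T3
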