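import Vale.Agent.P284.H213.T3.Grp
import Vale.Agent.P284.H213.T3.NormK
import Vale.Agent.P284.H213.Q.AsmQ

/-!
# P284 (helper213), theorem T3: group assembly
-/

open scoped Manifold ContDiff Topology Pointwise ComplexConjugate ComplexOrder
open Filter Set Metric MeasureTheory

noncomputable section

namespace Vale.Agent.P284.H213.T3

open Vale.Agent.P272.K Vale.Agent.P284.H248 Vale.Agent.P284.H894 Vale.Agent.P284.H894.G
  Vale.Agent.P284.H894.V Vale.Agent.P284.H894.W Vale.Agent.P284.H894.F Vale.Agent.P284.H998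
  Vale.Agent.P284.H213.Grp Vale.Agent.P284.H213.Q Vale.Agent.P284.H119.Kaz
  Vale.Agent.P284.H409.A Vale.Agent.P284.H913.Tube Vale.Agent.P284.H10

section
variable {n : ℕ} {X : Type} [TopologicalSpace X] [T2Space X] [CompactSpace X] [ConnectedSpace X]
  [ChartedSpace (Cm n) X] [IsManifold 𝓘(ℂ, Cm n) ω X]

/-- The Albanese data: the generic fibre is connected, the kernel is finitely generated. -/
theorem prep {D : Cls} (hst : EtSt D) (hM : MFD D) {ι : Type} [Fintype ι] (J : PJ n X ι) (hD : D n X)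
    {w : Chart n X → Cm n → Matrix (Fin n) (Fin n) ℂ} (hw : IsKahler w)
    {E Γ : Type} [TopologicalSpace E] [SimplyConnectedSpace E] [Group Γ] [MulAction Γ E]
    {p : E → X} (hp : IsGalois Γ p) {G K : Subgroup Γ} {N : ℕ} {F : E → Cm N} {c : Γ → Cm N}
    (hAl : Alb p w G K F c) (hreg : ∃ y, Reg (n := n) p F y) :
    GenConn (n := n) p F ∧ Group.FG (K.subgroupOf G) ∧ N ≤ n := by
  obtain ⟨y₀, hreg⟩ := hreg
  have hlat := latChar_of_alb hAl
  obtain ⟨B, hB⟩ := hAl.hol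
  obtain ⟨Y, _, _, _, _, _, _, pY, π, hπ, hπc, hpY, hπp⟩ := H885.exists_quo n X E Γ p hp G hAl.fi
  have hDY : D n Y := hst n X Y π hπ hπc hD
  have hwY : IsKahler (H885.pull π w) := hπ.isKahler hw
  have hBY : HolB pY (H885.pull π w) F B := hπ.holB hπp hB
  have hregY : Reg (n := n) pY F y₀ := (hπ.reg_iff hπp).2 hreg
  have hequiv : ∀ (g : G) (y : E), F (g • y) = F y + c g := fun g y => hAl.equiv g g.2 y
  have hgcY : GenConn (n := n) pY F := hM n Y ι (hπ.pj J) hDY _ hwY E G pY hpY N F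
    (fun g : G => c g) ⟨B, hBY⟩ hequiv hlat ⟨y₀, hregY⟩
  have hgc : GenConn (n := n) p F := by
    obtain ⟨T, hT, hTi, hTS⟩ := hgcY
    exact ⟨T, hT, hTi, fun t ht => ⟨(hTS t ht).1, fun y hy => (hπ.reg_iff hπp).1 ((hTS t ht).2 y hy)⟩⟩
  have hKmem : ∀ g : G, g ∈ K.subgroupOf G ↔ c g = 0 := fun g => by
    rw [Subgroup.mem_subgroupOf, hAl.mem]
    exact ⟨fun h => h.2, fun h => ⟨g.2, h⟩⟩
  refine ⟨hgc, ?_, le_of_reg hB hreg⟩
  obtain ⟨T, hT, hTi, hTS⟩ := hgc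
  obtain ⟨t, ht⟩ : ∃ t, t ∉ T := by
    by_contra hcon
    push Not at hcon
    have h1 : T = univ := eq_univ_of_forall hcon
    rw [h1, interior_univ] at hTi
    exact univ_nonempty.ne_empty hTi
  refine fg_of_conn n hpY (H221.holB_cont hp.cov hB) hequiv hlat.disc (K.subgroupOf G)
    (fun k hk => (hKmem k).1 hk) ⟨{1}, finite_singleton _, fun g hg => ⟨1, rfl, ?_⟩⟩ (hTS t ht).1
  rw [inv_one, one_mul]
  exact (hKmem g).2 hg

/-- Descent of the Albanese data to a quotient of the group and of the torus. -/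
theorem descend {D : Cls} (hst : EtSt D) (hM : MFD D) {ι : Type} [Fintype ι] (J : PJ n X ι)
    (hD : D n X) {w : Chart n X → Cm n → Matrix (Fin n) (Fin n) ℂ} (hw : IsKahler w)
    {E Γ : Type} [TopologicalSpace E] [SimplyConnectedSpace E] [Group Γ] [MulAction Γ E]
    {p : E → X} (hp : IsGalois Γ p) {G K : Subgroup Γ} {N : ℕ} {F : E → Cm N} {c : Γ → Cm N}
    (hAl : Alb p w G K F c) (hreg : ∃ y, Reg (n := n) p F y)
    (M : Subgroup G) [M.Normal] {q : ℕ} (L : Cm N →ₗ[ℂ] Cm q) (hL : Function.Surjective L)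
    (c₁ : G ⧸ M → Cm q) (hc₁ : ∀ g : G, c₁ (g : G ⧸ M) = L (c g)) (hlat₁ : LatChar (G ⧸ M) q c₁)
    (hP : ∀ (Y : Type) [TopologicalSpace Y] [T2Space Y] [CompactSpace Y] [ConnectedSpace Y]
      [ChartedSpace (Cm n) Y] [IsManifold 𝓘(ℂ, Cm n) ω Y] (_ : PJ n Y ι) (_ : D n Y)
      (w' : Chart n Y → Cm n → Matrix (Fin n) (Fin n) ℂ), IsKahler w' →
      ∀ (E' : Type) [TopologicalSpace E'] [ConnectedSpace E'] [MulAction (G ⧸ M) E']
      (p' : E' → Y), IsGalois (G ⧸ M) p' →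
      ∀ F' : E' → Cm q, (∃ B, HolB p' w' F' B) → (∀ g y, F' (g • y) = F' y + c₁ g) →
      (∃ y, Reg (n := n) p' F' y) → GenConn (n := n) p' F' → False) : False := by
  obtain ⟨y₀, hreg⟩ := hreg
  have hlat := latChar_of_alb hAl
  obtain ⟨B, hB⟩ := hAl.hol
  obtain ⟨Y, _, _, _, _, _, _, pY, π, hπ, hπc, hpY, hπp⟩ := H885.exists_quo n X E Γ p hp G hAl.fi
  have hDY : D n Y := hst n X Y π hπ hπc hD
  have hwY : IsKahler (H885.pull π w) := hπ.isKahler hw
  have hBY : HolB pY (H885.pull π w) F B := hπ.holB hπp hB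
  have hregY : Reg (n := n) pY F y₀ := (hπ.reg_iff hπp).2 hreg
  have hequiv : ∀ (g : G) (y : E), F (g • y) = F y + c g := fun g y => hAl.equiv g g.2 y
  obtain ⟨B', hB'⟩ := HolB.linear hBY L
  have hinv : ∀ m ∈ M, ∀ y, L (F (m • y)) = L (F y) := by
    intro m hm y
    have h1 : (m : G ⧸ M) = ((1 : G) : G ⧸ M) := by
      rw [QuotientGroup.eq]
      simpa using hm
    have h2 := hc₁ m
    rw [h1, hc₁ 1] at h2
    have h3 : L (c (1 : G)) = 0 := by rw [hlat.map_one, map_zero]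
    rw [hequiv, map_add, ← h2, h3, add_zero]
  have hp₁ := H885.isGalois_toX hpY M
  have hcon₁ : ConnectedSpace (H885.Quo E M) := H885.connected_quo M
  let F₁ : H885.Quo E M → Cm q := H885.desc M (fun y => L (F y)) hinv
  have hF₁ : HolB (H885.toX hpY M) (H885.pull π w) F₁ B' := H885.holB_desc hpY M hinv hB'
  have hregL : Reg (n := n) pY (fun y => L (F y)) y₀ := Reg.linear hpY.cov hBY L hL hregY
  have hreg₁ : Reg (n := n) (H885.toX hpY M) F₁ (H885.mk M y₀) :=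
    (H885.reg_desc hpY M hinv y₀).2 hregL
  have heq : ∀ (g : G ⧸ M) (y : H885.Quo E M), F₁ (g • y) = F₁ y + c₁ g := by
    intro g y
    obtain ⟨g, rfl⟩ := QuotientGroup.mk_surjective g
    obtain ⟨y, rfl⟩ := H885.mk_surjective M y
    rw [H885.quo_smul_mk]
    show L (F (g • y)) = L (F y) + c₁ (g : G ⧸ M)
    rw [hequiv, map_add, hc₁]
  have hgc₁ := hM n Y ι (hπ.pj J) hDY _ hwY (H885.Quo E M) (G ⧸ M) _ hp₁ q F₁ c₁ ⟨B', hF₁⟩ heq
    hlat₁ ⟨_, hreg₁⟩
  exact hP Y (hπ.pj J) hDY _ hwY (H885.Quo E M) _ hp₁ F₁ ⟨B', hF₁⟩ heq ⟨_, hreg₁⟩ hgc₁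

end

/-- the quotient by `K ⊓ ker f` -/
theorem exists_quoK {G Q : Type} [Group G] [Group Q] (f : G →* Q) {N : ℕ} {c : G → Cm N}
    (hlat : LatChar G N c) (K : Subgroup G) (hK : ∀ g, g ∈ K ↔ c g = 0) :
    ∃ (M : Subgroup G) (_ : M.Normal) (c₀ : G ⧸ M → Cm N), M = K ⊓ f.ker ∧
      (∀ g : G, c₀ (g : G ⧸ M) = c g) ∧ LatChar (G ⧸ M) N c₀ ∧
      (∀ x, x ∈ K.map (QuotientGroup.mk' M) ↔ c₀ x = 0) ∧
      Nonempty (K.map (QuotientGroup.mk' M) ≃* K.map f) := by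
  have hKn : K.Normal := ⟨fun x hx g => by
    rw [hK] at hx ⊢
    rw [hlat.conj]; exact hx⟩
  have hM₀n : (K ⊓ f.ker).Normal := inferInstance
  obtain ⟨c₀, hc₀, hlat₀⟩ := exists_lift hlat (K ⊓ f.ker) (fun g hg => (hK g).1 hg.1)
  have hmem : ∀ g : G, (g : G ⧸ (K ⊓ f.ker)) ∈ K.map (QuotientGroup.mk' (K ⊓ f.ker)) ↔ g ∈ K := by
    intro g
    constructor
    · rintro ⟨k, hk, hkg⟩
      have h1 : k⁻¹ * g ∈ K ⊓ f.ker := QuotientGroup.eq.1 hkg
      have h2 := K.mul_mem hk h1.1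
      rwa [mul_inv_cancel_left] at h2
    · intro hg
      exact ⟨g, hg, rfl⟩
  refine ⟨K ⊓ f.ker, hM₀n, c₀, rfl, hc₀, hlat₀, ?_, ?_⟩
  · intro x
    obtain ⟨g, rfl⟩ := QuotientGroup.mk_surjective x
    rw [hmem, hc₀, hK]
  · let φ : K →* Q := f.comp K.subtype
    let ψ : K →* G ⧸ (K ⊓ f.ker) := (QuotientGroup.mk' (K ⊓ f.ker)).comp K.subtype
    obtain ⟨e⟩ := range_equiv ψ φ (fun k => by
      show ((k : G) : G ⧸ (K ⊓ f.ker)) = 1 ↔ f k = 1
      rw [QuotientGroup.eq_one_iff]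
      exact ⟨fun h => h.2, fun h => ⟨k.2, h⟩⟩)
    have hφr : φ.range = K.map f := by
      show (f.comp K.subtype).range = K.map f
      rw [MonoidHom.range_comp, Subgroup.range_subtype]
    have hψr : ψ.range = K.map (QuotientGroup.mk' (K ⊓ f.ker)) := by
      show ((QuotientGroup.mk' (K ⊓ f.ker)).comp K.subtype).range = _
      rw [MonoidHom.range_comp, Subgroup.range_subtype]
    exact ⟨(MulEquiv.subgroupCongr hψr.symm).trans (e.trans (MulEquiv.subgroupCongr hφr))⟩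

/-- **Group assembly, strong form.** -/
theorem mainSCT_of {D : Cls} (hst : EtSt D) (hA : AlbUD D) (hM : MFD D) (hCo : CoreTP D) :
    MainSCT D := by
  intro n X _ _ _ _ _ _ ι _ J hD w hw E Γ _ _ _ _ p hp Q _ f hf
  obtain ⟨_, _, _, hfg, -⟩ := H639.V.v15Stmt n X w hw E Γ p hp
  obtain ⟨G, K, N, F, c, hAl, hreg⟩ := hA n X ι J hD w hw E Γ p hp
  obtain ⟨hgc, hKfgG, hNn⟩ := prep hst hM J hD hw hp hAl hreg
  have hadd := alb_add hAl
  have hlat := latChar_of_alb hAl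
  have hKG : K ≤ G := fun g hg => ((hAl.mem g).1 hg).1
  have hKmem : ∀ g : G, g ∈ K.subgroupOf G ↔ c g = 0 := fun g => by
    rw [Subgroup.mem_subgroupOf, hAl.mem]
    exact ⟨fun h => h.2, fun h => ⟨g.2, h⟩⟩
  have hmap : (K.subgroupOf G).map (f.comp G.subtype) = K.map f := by
    rw [← Subgroup.map_map, Subgroup.subgroupOf_map_subtype, inf_eq_left.2 hKG]
  have hKffg : Group.FG (K.map f) := by
    rw [← hmap]
    exact Group.fg_of_surjective (f := (f.comp G.subtype).subgroupMap (K.subgroupOf G))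
      ((f.comp G.subtype).subgroupMap_surjective (K.subgroupOf G))
  by_cases hcase : Kazhdan (K.map f) ∨ NSRep (K.map f)
  · exact (t3C_of_image f hf G K hAl.fi c hadd hAl.mem hAl.disc hAl.span hKffg hcase).mono
      (Nat.mul_le_mul_left 2 hNn)
  exfalso
  push Not at hcase
  obtain ⟨hnk, hns⟩ := hcase
  have hnvi : ¬ VirtIndicable (K.map f) := fun hv => end_of_reg hw hp hAl hreg
    (grpAStmt Γ Q f hf hfg G K hAl.fi N c hadd hAl.mem hAl.disc hAl.span hKffg hv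
      (uni_of_conn hw hp hAl hgc))
  have hfr : H573.DK.FinRep (K.map f) := finRep_of_not_nsRep hKffg hnvi hns
  obtain ⟨M, hMn, c₀, -, hc₀, hlat₀, hK₀m, ⟨e⟩⟩ :=
    exists_quoK (f.comp G.subtype) hlat (K.subgroupOf G) hKmem
  have e' : (K.subgroupOf G).map (QuotientGroup.mk' M) ≃* K.map f :=
    e.trans (MulEquiv.subgroupCongr hmap)
  refine descend hst hM J hD hw hp hAl hreg M LinearMap.id Function.surjective_id c₀ hc₀ hlat₀ ?_
  intro Y _ _ _ _ _ _ JY hDY w' hw' E' _ _ _ p' hp' F' hB' heq' hreg' hgc'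
  exact hCo n Y ι JY hDY w' hw' E' (G ⧸ M) p' hp' N F' c₀ _ hB' heq' hreg' hgc' hlat₀ hK₀m
    (Group.fg_of_surjective (f := e'.symm.toMonoidHom) e'.symm.surjective)
    (fun h => hnvi (H465.V19.virtIndicable_of_equiv e' h)) (finRep_equiv e' hfr)
    (fun h => hnk (h.of_equiv e'))

/-- **Group assembly, normalised data.** -/
theorem mainSCN_of {D : Cls} (hst : EtSt D) (hA : AlbUD D) (hM : MFD D) (hCo : CoreT D) :
    MainSCN D := by
  intro n X _ _ _ _ _ _ ι _ J hD w hw E Γ _ _ _ _ p hp Q _ f hf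
  obtain ⟨_, _, _, hfg, -⟩ := H639.V.v15Stmt n X w hw E Γ p hp
  obtain ⟨G, K, N, F, c, hAl, hreg⟩ := hA n X ι J hD w hw E Γ p hp
  obtain ⟨hgc, hKfgG, hNn⟩ := prep hst hM J hD hw hp hAl hreg
  have hadd := alb_add hAl
  have hlat := latChar_of_alb hAl
  have hKG : K ≤ G := fun g hg => ((hAl.mem g).1 hg).1
  have hKmem : ∀ g : G, g ∈ K.subgroupOf G ↔ c g = 0 := fun g => by
    rw [Subgroup.mem_subgroupOf, hAl.mem]
    exact ⟨fun h => h.2, fun h => ⟨g.2, h⟩⟩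
  have hmap : (K.subgroupOf G).map (f.comp G.subtype) = K.map f := by
    rw [← Subgroup.map_map, Subgroup.subgroupOf_map_subtype, inf_eq_left.2 hKG]
  have hKffg : Group.FG (K.map f) := by
    rw [← hmap]
    exact Group.fg_of_surjective (f := (f.comp G.subtype).subgroupMap (K.subgroupOf G))
      ((f.comp G.subtype).subgroupMap_surjective (K.subgroupOf G))
  refine T3N.mono (r := 2 * N) ?_ (Nat.mul_le_mul_left 2 hNn)
  refine t3N_of_image f hf G K hAl.fi c hadd hAl.mem hAl.disc hAl.span hKffg ?_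
  by_contra hcase
  push Not at hcase
  obtain ⟨hinf, hnk, hns⟩ := hcase
  have hnvi : ¬ VirtIndicable (K.map f) := fun hv => end_of_reg hw hp hAl hreg
    (grpAStmt Γ Q f hf hfg G K hAl.fi N c hadd hAl.mem hAl.disc hAl.span hKffg hv
      (uni_of_conn hw hp hAl hgc))
  have hfr : H573.DK.FinRep (K.map f) := finRep_of_not_nsRep hKffg hnvi hns
  obtain ⟨M, hMn, c₀, hMdef, hc₀, hlat₀, hK₀m, ⟨e⟩⟩ :=
    exists_quoK (f.comp G.subtype) hlat (K.subgroupOf G) hKmem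
  set K₀ : Subgroup (G ⧸ M) := (K.subgroupOf G).map (QuotientGroup.mk' M) with hK₀
  have e' : K₀ ≃* K.map f := e.trans (MulEquiv.subgroupCongr hmap)
  have hK₀fg : Group.FG K₀ :=
    Group.fg_of_surjective (f := e'.symm.toMonoidHom) e'.symm.surjective
  have hK₀i : Infinite K₀ := Infinite.of_injective e'.symm e'.symm.injective
  have hK₀v : ¬ VirtIndicable K₀ := fun h => hnvi (H465.V19.virtIndicable_of_equiv e' h)
  obtain ⟨M₂, hM₂n, q, L, c₁, hL, hc₁, hN⟩ := normK (G ⧸ M) N c₀ hlat₀ K₀ hK₀m hK₀fg hK₀i hK₀v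
  -- one quotient
  let θ : G →* (G ⧸ M) ⧸ M₂ := (QuotientGroup.mk' M₂).comp (QuotientGroup.mk' M)
  have hθ : Function.Surjective θ :=
    (QuotientGroup.mk'_surjective M₂).comp (QuotientGroup.mk'_surjective M)
  have hKθ : (K.subgroupOf G).map θ = K₀.map (QuotientGroup.mk' M₂) := by
    rw [hK₀, Subgroup.map_map]
  have hnk' : ¬ Kazhdan (K₀.map (QuotientGroup.mk' M₂)) := by
    rw [← hKθ]
    refine hnk _ inferInstance θ (fun k hk hfk => ?_) ?_
    · have h1 : k ∈ M := by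
        rw [hMdef]
        exact ⟨hk, hfk⟩
      have h2 : (k : G ⧸ M) = 1 := (QuotientGroup.eq_one_iff k).2 h1
      show ((k : G ⧸ M) : (G ⧸ M) ⧸ M₂) = 1
      rw [h2]
      rfl
    · rw [hKθ]
      exact hN.inf
  let e₂ : G ⧸ θ.ker ≃* (G ⧸ M) ⧸ M₂ := QuotientGroup.quotientKerEquivOfSurjective θ hθ
  have hN' := hN.congr e₂
  let e₃ : (K₀.map (QuotientGroup.mk' M₂)).comap e₂.toMonoidHom ≃*
      K₀.map (QuotientGroup.mk' M₂) :=
    MulEquiv.ofBijective (e₂.toMonoidHom.subgroupComap (K₀.map (QuotientGroup.mk' M₂)))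
      ⟨fun x y hxy => Subtype.ext (e₂.injective (congrArg Subtype.val hxy)),
        fun y => ⟨⟨e₂.symm y, by
          show e₂ (e₂.symm y) ∈ K₀.map (QuotientGroup.mk' M₂)
          rw [e₂.apply_symm_apply]; exact y.2⟩, Subtype.ext (e₂.apply_symm_apply y)⟩⟩
  have hfr₁ : H573.DK.FinRep (K₀.map (QuotientGroup.mk' M₂)) :=
    finRep_of_surjective ((QuotientGroup.mk' M₂).subgroupMap K₀)
      ((QuotientGroup.mk' M₂).subgroupMap_surjective K₀) (finRep_equiv e' hfr)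
  refine descend hst hM J hD hw hp hAl hreg θ.ker L hL (fun x => c₁ (e₂ x)) (fun g => ?_)
    hN'.lat ?_
  · show c₁ (((g : G ⧸ M)) : (G ⧸ M) ⧸ M₂) = L (c g)
    rw [hc₁, hc₀]
  intro Y _ _ _ _ _ _ JY hDY w' hw' E' _ _ _ p' hp' F' hB' heq' hreg' hgc'
  exact hCo n Y ι JY hDY w' hw' E' (G ⧸ θ.ker) p' hp' q F' (fun x => c₁ (e₂ x)) _ hB' heq' hreg'
    hgc' hN' (finRep_equiv e₃ hfr₁) (fun h => hnk' (h.of_equiv e₃))

/-- quotients of the fundamental group, strong form -/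
theorem mainPiT_of {D : Cls} (h : MainSCT D) : MainPiT D := by
  intro n X _ _ _ _ _ _ ι _ J hD w hw x Q _ f hf
  obtain ⟨Y, Γ, tY, hsc, gΓ, aΓ, π, e, hG⟩ := H977.exists_uc (n := n) X x
  exact h n X ι J hD w hw Y Γ π hG Q (f.comp e.symm.toMonoidHom) (hf.comp e.symm.surjective)

/-- quotients of the fundamental group, normalised form -/
theorem mainPiN_of {D : Cls} (h : MainSCN D) : MainPiN D := by
  intro n X _ _ _ _ _ _ ι _ J hD w hw x Q _ f hf
  obtain ⟨Y, Γ, tY, hsc, gΓ, aΓ, π, e, hG⟩ := H977.exists_uc (n := n) X x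
  exact h n X ι J hD w hw Y Γ π hG Q (f.comp e.symm.toMonoidHom) (hf.comp e.symm.surjective)

end Vale.Agent.P284.H213.T3
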