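import Vale.Agent.P284.H213.T3.S
import Vale.Agent.P284.H913.V18
import Vale.Agent.P284.H731.Lat

/-!
# P284 (helper213), theorem T3: group lemmas
-/

open Function

noncomputable section

namespace Vale.Agent.P284.H213.T3

open Vale.Agent.P272.K Vale.Agent.P284.H894.V Vale.Agent.P284.H119.Kaz Vale.Agent.P284.H913.V

/-- finitely generated, not virtually indicable, all real linear images virtually solvable ==> all real
linear images are finite -/
theorem finRep_of_not_nsRep {K : Type} [Group K] (hfg : Group.FG K) (hnv : ¬ VirtIndicable K)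
    (h : ¬ NSRep K) : H573.DK.FinRep K := by
  intro V _ _ _ ρ
  by_contra hinf
  obtain ⟨b⟩ : Nonempty (Module.Basis (Fin (Module.finrank ℝ V)) ℝ V) :=
    ⟨Module.finBasis ℝ V⟩
  obtain ⟨e, he⟩ : ∃ e : (V →ₗ[ℝ] V) →* Matrix (Fin (Module.finrank ℝ V))
      (Fin (Module.finrank ℝ V)) ℝ, Function.Injective e :=
    ⟨((LinearMap.toMatrixAlgEquiv b : (V →ₗ[ℝ] V) ≃ₐ[ℝ] _) : (V →ₗ[ℝ] V) →* _),
      (LinearMap.toMatrixAlgEquiv b).injective⟩
  let ρ' : K →* Matrix.GeneralLinearGroup (Fin (Module.finrank ℝ V)) ℝ :=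
    (Units.map e).comp ρ.toHomUnits
  have hρ' : ∀ g, ((ρ' g : Matrix.GeneralLinearGroup (Fin (Module.finrank ℝ V)) ℝ) :
      Matrix (Fin (Module.finrank ℝ V)) (Fin (Module.finrank ℝ V)) ℝ) = e (ρ g) := fun g => rfl
  have hinf' : (Set.range ρ').Infinite := by
    intro hcon
    apply hinf
    have h1 : (e '' Set.range ρ).Finite := by
      refine (hcon.image (fun u : Matrix.GeneralLinearGroup (Fin (Module.finrank ℝ V)) ℝ =>
        (u : Matrix (Fin (Module.finrank ℝ V)) (Fin (Module.finrank ℝ V)) ℝ))).subset ?_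
      rintro _ ⟨_, ⟨g, rfl⟩, rfl⟩
      exact ⟨ρ' g, ⟨g, rfl⟩, hρ' g⟩
    exact h1.of_finite_image he.injOn
  obtain ⟨H, hH, ⟨d, hd⟩⟩ : ∃ H : Subgroup K, H.FiniteIndex ∧ IsSolvable (H.map ρ') := by
    by_contra hcon
    push Not at hcon
    exact h ⟨_, ρ', fun H hH => hcon H hH⟩
  have hHfg : Group.FG H := Subgroup.fg_of_index_ne_zero _
  have hsurj : Function.Surjective (ρ'.subgroupMap H) := ρ'.subgroupMap_surjective H
  have hSfg : Group.FG (H.map ρ') := Group.fg_of_surjective hsurj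
  have hSi : Infinite (H.map ρ') := by
    by_contra hcon
    have h2 : Finite (H.map ρ') := not_infinite_iff_finite.1 hcon
    exact hinf' (finite_range_of ρ' H (Set.toFinite _))
  exact hnv (VirtIndicable.of_subgroup H (VirtIndicable.of_surjective _ hsurj
    (virtIndicable_of_derived d _ hSfg hSi hd)))

theorem NSRep.of_equiv {A B : Type*} [Group A] [Group B] (e : A ≃* B) (h : NSRep B) : NSRep A := by
  obtain ⟨d, ρ, hρ⟩ := h
  refine ⟨d, ρ.comp e.toMonoidHom, fun H hH hs => ?_⟩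
  have h1 : (H.map e.toMonoidHom).FiniteIndex := by
    refine ⟨?_⟩
    have h2 : (H.map e.toMonoidHom).index = H.index :=
      Subgroup.index_map_of_bijective (f := e.toMonoidHom) e.bijective H
    rw [h2]
    exact hH.index_ne_zero
  refine hρ _ h1 ?_
  rw [Subgroup.map_map]
  exact hs

theorem finRep_equiv {A B : Type} [Group A] [Group B] (e : A ≃* B) (h : H573.DK.FinRep B) :
    H573.DK.FinRep A := by
  intro V _ _ _ ρ
  refine (h V (ρ.comp e.symm.toMonoidHom)).subset ?_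
  rintro _ ⟨a, rfl⟩
  exact ⟨e a, by simp⟩

theorem finRep_of_surjective {A B : Type} [Group A] [Group B] (f : A →* B) (hf : Surjective f)
    (h : H573.DK.FinRep A) : H573.DK.FinRep B := by
  intro V _ _ _ ρ
  refine (h V (ρ.comp f)).subset ?_
  rintro _ ⟨b, rfl⟩
  obtain ⟨a, rfl⟩ := hf b
  exact ⟨a, rfl⟩

/-- a quotient of a group with an epimorphism to `ℤ^r` -/
theorem exists_char {G Q : Type} [Group G] [Group Q] (f : G →* Q) (hf : Surjective f) {r : ℕ}
    (c : G →* Multiplicative (Fin r → ℤ)) (hc : Surjective c) :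
    ∃ (G₁ : Subgroup Q) (m : ℕ) (χ : G₁ →* Multiplicative (Fin m → ℤ)), G₁.FiniteIndex ∧ m ≤ r ∧
      Surjective χ ∧ c.ker.map f ≤ G₁ ∧ χ.ker = (c.ker.map f).subgroupOf G₁ := by
  classical
  let A : Type := Multiplicative (Fin r → ℤ) ⧸ f.ker.map c
  let mk : Multiplicative (Fin r → ℤ) →* A := QuotientGroup.mk' (f.ker.map c)
  have hmk : Surjective mk := QuotientGroup.mk'_surjective _
  have hle : f.ker ≤ (mk.comp c).ker := by
    intro g hg
    show mk (c g) = 1
    exact (QuotientGroup.eq_one_iff _).2 ⟨g, hg, rfl⟩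
  let θ : Q →* A := f.liftOfSurjective hf ⟨mk.comp c, hle⟩
  have hθ : ∀ g, θ (f g) = mk (c g) := fun g =>
    MonoidHom.liftOfRightInverse_comp_apply f _ (rightInverse_surjInv hf) ⟨mk.comp c, hle⟩ g
  have hθs : Surjective θ := by
    intro a
    obtain ⟨z, rfl⟩ := hmk a
    obtain ⟨g, rfl⟩ := hc z
    exact ⟨f g, hθ g⟩
  have hθk : ∀ x, θ x = 1 ↔ x ∈ c.ker.map f := by
    intro x
    obtain ⟨g, rfl⟩ := hf x
    rw [hθ]
    constructor
    · intro h1
      obtain ⟨k, hk, hkc⟩ := (QuotientGroup.eq_one_iff _).1 h1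
      refine ⟨g * k⁻¹, ?_, ?_⟩
      · show c (g * k⁻¹) = 1
        rw [map_mul, map_inv, hkc, mul_inv_cancel]
      · have hk' : f k = 1 := hk
        rw [map_mul, map_inv, hk', inv_one, mul_one]
    · rintro ⟨k, hk, hkf⟩
      have h1 : g * k⁻¹ ∈ f.ker := by
        show f (g * k⁻¹) = 1
        rw [map_mul, map_inv, hkf, mul_inv_cancel]
      have h2 := hle h1
      have h3 : mk (c (g * k⁻¹)) = 1 := h2
      have hk' : c k = 1 := hk
      rw [map_mul, map_inv, hk', inv_one, mul_one] at h3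
      exact h3
  have hAfg : Group.FG A := Group.fg_of_surjective hmk
  obtain ⟨ι, j, hι, hj, p, hp, e, ⟨φ⟩⟩ := CommGroup.equiv_free_prod_prod_multiplicative_zmod A
  have hfinT : Finite ((i : ι) → Multiplicative (ZMod (p i ^ e i))) := by
    have : ∀ i, Finite (Multiplicative (ZMod (p i ^ e i))) := fun i => by
      have : NeZero (p i ^ e i) := ⟨pow_ne_zero _ (hp i).ne_zero⟩
      exact inferInstanceAs (Finite (ZMod (p i ^ e i)))
    infer_instance
  let σ₂ : A →* ((i : ι) → Multiplicative (ZMod (p i ^ e i))) :=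
    (MonoidHom.snd _ _).comp φ.toMonoidHom
  let σ₁ : A →* (j → Multiplicative ℤ) := (MonoidHom.fst _ _).comp φ.toMonoidHom
  have hj2 : Fintype.card j ≤ r := by
    let L : (Fin r → ℤ) →ₗ[ℤ] (j → ℤ) := AddMonoidHom.toIntLinearMap
      { toFun := fun x i => Multiplicative.toAdd (σ₁ (mk (Multiplicative.ofAdd x)) i)
        map_zero' := by
          funext i
          rw [ofAdd_zero, map_one, map_one]
          rfl
        map_add' := fun x y => by
          funext i
          rw [ofAdd_add, map_mul, map_mul]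
          rfl }
    have hL : Surjective L := by
      intro y
      obtain ⟨x, hx⟩ := hmk (φ.symm (fun i => Multiplicative.ofAdd (y i), 1))
      refine ⟨Multiplicative.toAdd x, ?_⟩
      funext i
      show Multiplicative.toAdd (σ₁ (mk x) i) = y i
      rw [hx]
      show Multiplicative.toAdd ((φ (φ.symm (fun i => Multiplicative.ofAdd (y i), 1))).1 i) = y i
      rw [φ.apply_symm_apply]
      rfl
    have := card_le_of_surjective ℤ L hL
    simpa using this
  let G₁ : Subgroup Q := (σ₂.comp θ).ker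
  have hG₁ : G₁.FiniteIndex := by
    have : Finite (Q ⧸ G₁) :=
      Finite.of_injective _ (QuotientGroup.kerLift_injective (σ₂.comp θ))
    exact Subgroup.finiteIndex_of_finite_quotient
  let τ : j ≃ Fin (Fintype.card j) := Fintype.equivFin j
  let conv : (j → Multiplicative ℤ) →* Multiplicative (Fin (Fintype.card j) → ℤ) :=
    { toFun := fun y => Multiplicative.ofAdd fun i => Multiplicative.toAdd (y (τ.symm i))
      map_one' := rfl
      map_mul' := fun _ _ => rfl }
  have hconv : ∀ y, conv y = 1 → y = 1 := by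
    intro y hy
    funext i
    have h1 := congrFun (congrArg Multiplicative.toAdd hy) (τ i)
    have h2 : Multiplicative.toAdd (y (τ.symm (τ i))) = 0 := h1
    rw [τ.symm_apply_apply] at h2
    exact h2
  let χ : G₁ →* Multiplicative (Fin (Fintype.card j) → ℤ) :=
    (conv.comp (σ₁.comp θ)).comp G₁.subtype
  have hKG : c.ker.map f ≤ G₁ := by
    intro x hx
    show σ₂ (θ x) = 1
    rw [(hθk x).2 hx, map_one]
  have hker : χ.ker = (c.ker.map f).subgroupOf G₁ := by
    ext x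
    rw [Subgroup.mem_subgroupOf, ← hθk]
    constructor
    · intro hx
      have h1 : conv (σ₁ (θ x)) = 1 := hx
      have h2 : σ₁ (θ x) = 1 := hconv _ h1
      have h3 : σ₂ (θ x) = 1 := x.2
      refine φ.injective ?_
      rw [map_one]
      exact Prod.ext h2 h3
    · intro hx
      show conv (σ₁ (θ x)) = 1
      rw [hx, map_one, map_one]
  refine ⟨G₁, Fintype.card j, χ, hG₁, hj2, ?_, hKG, hker⟩
  intro y
  obtain ⟨x, hx⟩ := hθs (φ.symm (fun i => Multiplicative.ofAdd (Multiplicative.toAdd y (τ i)), 1))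
  refine ⟨⟨x, ?_⟩, ?_⟩
  · show (φ (θ x)).2 = 1
    rw [hx, φ.apply_symm_apply]
  · show conv ((φ (θ x)).1) = y
    rw [hx, φ.apply_symm_apply]
    refine Multiplicative.toAdd.injective ?_
    funext i
    show Multiplicative.toAdd (Multiplicative.ofAdd (Multiplicative.toAdd y (τ (τ.symm i)))) = _
    rw [τ.apply_symm_apply]
    rfl

/-- two homomorphisms with the same kernel have isomorphic ranges -/
theorem range_equiv {K A B : Type*} [Group K] [Group A] [Group B] (φ : K →* A) (ψ : K →* B)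
    (h : ∀ k, φ k = 1 ↔ ψ k = 1) : Nonempty (φ.range ≃* ψ.range) := by
  have hk : φ.ker = ψ.ker := by ext k; exact h k
  exact ⟨(QuotientGroup.quotientKerEquivRange φ).symm.trans
    ((QuotientGroup.quotientMulEquivOfEq hk).trans (QuotientGroup.quotientKerEquivRange ψ))⟩

/-- the same for a subgroup of finite index -/
theorem exists_char_sub {Γ Q : Type} [Group Γ] [Group Q] (f : Γ →* Q) (hf : Surjective f)
    (G : Subgroup Γ) (hG : G.FiniteIndex) {r : ℕ} (c : G →* Multiplicative (Fin r → ℤ))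
    (hc : Surjective c) :
    ∃ (G₁ : Subgroup Q) (m : ℕ) (χ : G₁ →* Multiplicative (Fin m → ℤ)), G₁.FiniteIndex ∧ m ≤ r ∧
      Surjective χ ∧ G₁ ≤ G.map f ∧ (∀ k : G, c k = 1 → f k ∈ G₁) ∧
      ∀ x : G₁, χ x = 1 ↔ ∃ k : G, c k = 1 ∧ f k = x := by
  obtain ⟨G₁, m, χ, hfi, hm, hχ, hle, hker⟩ :=
    exists_char (f.subgroupMap G) (f.subgroupMap_surjective G) c hc
  let H : Subgroup Q := G.map f
  have hH : H.FiniteIndex := by
    refine ⟨fun h0 => ?_⟩
    have h1 := Subgroup.index_map_dvd G hf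
    rw [h0] at h1
    exact hG.index_ne_zero (zero_dvd_iff.1 h1)
  let e : G₁ ≃* G₁.map H.subtype := G₁.equivMapOfInjective H.subtype (Subgroup.subtype_injective H)
  have hes : ∀ x : G₁.map H.subtype, (((e.symm x : G₁) : H) : Q) = x := by
    intro x
    have h1 : ((e (e.symm x) : G₁.map H.subtype) : Q) = x := by rw [e.apply_symm_apply]
    exact h1
  refine ⟨G₁.map H.subtype, m, χ.comp e.symm.toMonoidHom, ?_, hm, hχ.comp e.symm.surjective, ?_,
    fun k hk => ?_, fun x => ?_⟩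
  · rw [Subgroup.finiteIndex_iff, Subgroup.index_map_subtype]
    exact mul_ne_zero hfi.index_ne_zero hH.index_ne_zero
  · rintro _ ⟨x, -, rfl⟩
    exact x.2
  · exact ⟨f.subgroupMap G k, hle ⟨k, hk, rfl⟩, rfl⟩
  · have h1 : (χ.comp e.symm.toMonoidHom) x = 1 ↔ (e.symm x : G₁) ∈ χ.ker := Iff.rfl
    rw [h1, hker, Subgroup.mem_subgroupOf]
    constructor
    · rintro ⟨k, hk, hkx⟩
      refine ⟨k, hk, ?_⟩
      rw [← hes x, ← hkx]
      rfl
    · rintro ⟨k, hk, hkx⟩
      refine ⟨k, hk, Subtype.ext ?_⟩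
      rw [hes x, ← hkx]
      rfl

theorem T3C.mono {Q : Type} [Group Q] {r s : ℕ} (h : T3C Q r) (hrs : r ≤ s) : T3C Q s := by
  obtain ⟨G, m, χ, hG, hm, h⟩ := h
  exact ⟨G, m, χ, hG, hm.trans hrs, h⟩

theorem T3N.mono {Q : Type} [Group Q] {r s : ℕ} (h : T3N Q r) (hrs : r ≤ s) : T3N Q s := by
  obtain ⟨G, m, χ, hG, hm, h⟩ := h
  exact ⟨G, m, χ, hG, hm.trans hrs, h⟩

section image
variable {Γ Q : Type} [Group Γ] [Group Q] (f : Γ →* Q) (hf : Surjective f) (G K : Subgroup Γ)
  (hG : G.FiniteIndex) {N : ℕ} (c : Γ → Cm N) (hadd : ∀ g ∈ G, ∀ h ∈ G, c (g * h) = c g + c h)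
  (hmem : ∀ g, g ∈ K ↔ g ∈ G ∧ c g = 0)
  (hdisc : ∀ R : ℝ, {v | (∃ g ∈ G, c g = v) ∧ ‖v‖ ≤ R}.Finite)
  (hspan : Submodule.span ℝ (c '' (G : Set Γ)) = ⊤)

include hf hG hadd hmem hdisc hspan in
/-- the characters on the image -/
theorem exists_char_image :
    ∃ (G₁ : Subgroup Q) (m : ℕ) (χ : G₁ →* Multiplicative (Fin m → ℤ)), G₁.FiniteIndex ∧
      m ≤ 2 * N ∧ Surjective χ ∧ G₁ ≤ G.map f ∧ K.map f ≤ G₁ ∧
      ∀ x : G₁, χ x = 1 ↔ (x : Q) ∈ K.map f := by
  obtain ⟨c', hc', hker⟩ := H731.Lat.latStmt Γ G K N c hadd hmem hdisc hspan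
  have hk : ∀ k : G, c' k = 1 ↔ (k : Γ) ∈ K := by
    intro k
    have h1 : c' k = 1 ↔ k ∈ c'.ker := Iff.rfl
    rw [h1, hker, Subgroup.mem_subgroupOf]
  have hKG : K ≤ G := fun g hg => ((hmem g).1 hg).1
  obtain ⟨G₁, m, χ, hfi, hm, hχ, hle, h1, h2⟩ := exists_char_sub f hf G hG c' hc'
  refine ⟨G₁, m, χ, hfi, hm, hχ, hle, ?_, fun x => ?_⟩
  · rintro _ ⟨k, hk', rfl⟩
    exact h1 ⟨k, hKG hk'⟩ ((hk _).2 hk')
  · rw [h2]
    constructor
    · rintro ⟨k, hk', hkx⟩
      exact ⟨k, (hk k).1 hk', hkx⟩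
    · rintro ⟨k, hk', hkx⟩
      exact ⟨⟨k, hKG hk'⟩, (hk _).2 hk', hkx⟩

include hf hG hadd hmem hdisc hspan in
theorem t3C_of_image (hfg : Group.FG (K.map f)) (h : Kazhdan (K.map f) ∨ NSRep (K.map f)) :
    T3C Q (2 * N) := by
  obtain ⟨G₁, m, χ, hfi, hm, hχ, -, hle, h2⟩ :=
    exists_char_image f hf G K hG c hadd hmem hdisc hspan
  have hker : χ.ker = (K.map f).subgroupOf G₁ := by
    ext x
    exact h2 x
  let e' : χ.ker ≃* K.map f :=
    (MulEquiv.subgroupCongr hker).trans (Subgroup.subgroupOfEquivOfLe hle)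
  refine ⟨G₁, m, χ, hfi, hm, hχ, ?_, ?_⟩
  · exact Group.fg_of_surjective (f := e'.symm.toMonoidHom) e'.symm.surjective
  · rcases h with h | h
    · exact Or.inl (h.of_equiv e'.symm)
    · exact Or.inr (h.of_equiv e')

include hf hG hadd hmem hdisc hspan in
theorem t3N_of_image (hfg : Group.FG (K.map f))
    (h : Finite (K.map f) ∨
      (∃ (H : Type) (_ : Group H) (θ : G →* H), (∀ k : G, (k : Γ) ∈ K → f k = 1 → θ k = 1) ∧
        Infinite ((K.subgroupOf G).map θ) ∧ Kazhdan ((K.subgroupOf G).map θ)) ∨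
      NSRep (K.map f)) : T3N Q (2 * N) := by
  obtain ⟨G₁, m, χ, hfi, hm, hχ, hG₁, hle, h2⟩ :=
    exists_char_image f hf G K hG c hadd hmem hdisc hspan
  have hKG : K ≤ G := fun g hg => ((hmem g).1 hg).1
  have hker : χ.ker = (K.map f).subgroupOf G₁ := by
    ext x
    exact h2 x
  let e' : χ.ker ≃* K.map f :=
    (MulEquiv.subgroupCongr hker).trans (Subgroup.subgroupOfEquivOfLe hle)
  refine ⟨G₁, m, χ, hfi, hm, hχ, ?_, ?_⟩
  · exact Group.fg_of_surjective (f := e'.symm.toMonoidHom) e'.symm.surjective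
  · rcases h with h | ⟨H, _, θ, hθ, hi, hkz⟩ | h
    · exact Or.inl (Finite.of_equiv _ e'.symm.toEquiv)
    · refine Or.inr (Or.inl ?_)
      have hKn : (K.subgroupOf G).Normal := by
        refine ⟨fun x hx g => ?_⟩
        rw [Subgroup.mem_subgroupOf] at hx ⊢
        have hx0 := ((hmem _).1 hx).2
        refine (hmem _).2 ⟨(g * x * g⁻¹).2, ?_⟩
        show c ((g : Γ) * (x : Γ) * (g : Γ)⁻¹) = 0
        have h1 : c 1 = 0 := by
          have := hadd 1 G.one_mem 1 G.one_mem
          rw [one_mul] at this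
          exact (left_eq_add.1 this)
        have h3 := hadd (g : Γ) g.2 ((g : Γ)⁻¹) (G.inv_mem g.2)
        rw [mul_inv_cancel, h1] at h3
        rw [hadd _ (G.mul_mem g.2 x.2) _ (G.inv_mem g.2), hadd _ g.2 _ x.2, hx0, add_zero, ← h3]
      let N₀ : Subgroup G := θ.ker ⊓ K.subgroupOf G
      have hN₀ : N₀.Normal := inferInstance
      let N₁ : Subgroup G₁ := (N₀.map (f.comp G.subtype)).subgroupOf G₁
      have hN₁ : N₁.Normal := by
        refine ⟨fun x hx g => ?_⟩
        rw [Subgroup.mem_subgroupOf] at hx ⊢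
        obtain ⟨m, hm, hmx⟩ := hx
        obtain ⟨g', hg', hgg⟩ := hG₁ g.2
        refine ⟨⟨g', hg'⟩ * m * ⟨g', hg'⟩⁻¹, hN₀.conj_mem m hm _, ?_⟩
        have h4 : f (m : Γ) = (x : Q) := hmx
        show f (g' * m * g'⁻¹) = (g : Q) * (x : Q) * (g : Q)⁻¹
        rw [map_mul, map_mul, map_inv, hgg, h4]
      -- the two homomorphisms
      let φ : K.subgroupOf G →* G₁ ⧸ N₁ := (QuotientGroup.mk' N₁).comp
        { toFun := fun k => ⟨f k, hle ⟨k, k.2, rfl⟩⟩
          map_one' := Subtype.ext (map_one f)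
          map_mul' := fun a b => Subtype.ext (map_mul f _ _) }
      let ψ : K.subgroupOf G →* H := θ.comp (K.subgroupOf G).subtype
      have hφψ : ∀ k, φ k = 1 ↔ ψ k = 1 := by
        intro k
        have h3 : φ k = 1 ↔ f (k : G) ∈ N₀.map (f.comp G.subtype) := by
          show ((⟨f k, hle ⟨k, k.2, rfl⟩⟩ : G₁) : G₁ ⧸ N₁) = 1 ↔ _
          rw [QuotientGroup.eq_one_iff, Subgroup.mem_subgroupOf]
        rw [h3]
        constructor
        · rintro ⟨m, hm, hmk⟩
          have hmk' : f (m : Γ) = f (k : G) := hmk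
          have h4 : θ (k * m⁻¹ : G) = 1 := by
            refine hθ _ ?_ ?_
            · exact (K.subgroupOf G).mul_mem k.2 ((K.subgroupOf G).inv_mem hm.2)
            · show f ((k : G) * (m : Γ)⁻¹) = 1
              rw [map_mul, map_inv, hmk', mul_inv_cancel]
          have h5 : θ m = 1 := hm.1
          rw [map_mul, map_inv, h5, inv_one, mul_one] at h4
          exact h4
        · intro hk
          exact ⟨k, ⟨hk, k.2⟩, rfl⟩
      obtain ⟨e₂⟩ := range_equiv φ ψ hφψ
      have hφr : φ.range = χ.ker.map (QuotientGroup.mk' N₁) := by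
        ext y
        constructor
        · rintro ⟨k, rfl⟩
          exact ⟨⟨f k, hle ⟨k, k.2, rfl⟩⟩, (h2 _).2 ⟨k, k.2, rfl⟩, rfl⟩
        · rintro ⟨x, hx, rfl⟩
          obtain ⟨k, hk, hkx⟩ := (h2 x).1 hx
          refine ⟨⟨⟨k, hKG hk⟩, hk⟩, ?_⟩
          show (QuotientGroup.mk' N₁) _ = (QuotientGroup.mk' N₁) x
          exact congrArg _ (Subtype.ext hkx)
      have hψr : ψ.range = (K.subgroupOf G).map θ := by
        show (θ.comp (K.subgroupOf G).subtype).range = _
        rw [MonoidHom.range_comp, Subgroup.range_subtype]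
      let e₃ : χ.ker.map (QuotientGroup.mk' N₁) ≃* (K.subgroupOf G).map θ :=
        (MulEquiv.subgroupCongr hφr.symm).trans (e₂.trans (MulEquiv.subgroupCongr hψr))
      refine ⟨N₁, hN₁, ?_, Infinite.of_injective e₃.symm e₃.symm.injective, hkz.of_equiv e₃.symm⟩
      intro x hx
      obtain ⟨m, hm, hmx⟩ := hx
      exact (h2 x).2 ⟨m, hm.2, hmx⟩
    · exact Or.inr (Or.inr (h.of_equiv e'))

end image

end Vale.Agent.P284.H213.T3
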